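import Mathlib
import Vale.Agent.P039.Bn.Defs

/-! P039, Step 1 (second half). `M` is a connected plane Eulerian triangulation (`B` black and `W`
white triangles, `V` vertices; `G` is the dual cubic bipartite map). `m b` is the colour of the edge
at `b` of a perfect matching of `G`, `f b ≠ m b` is such that every vertex of `T` which is not at the
black triangle `b0` is `c (f b) b` for some `b ≠ b0`. Then `G` minus the matching is connected, so it
is a Hamiltonian cycle. -/

namespace Vale.Agent.P039.H915

open Vale.Agent.P039.Bn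

variable {B W V : Type}

/-- `(S, T)` is closed for the edges of `G` outside the matching `m`. -/
def Closed (M : PMap B W V) (m : B → Fin 3) (S : Set B) (T : Set W) : Prop :=
  ∀ b j, j ≠ m b → (b ∈ S ↔ M.e j b ∈ T)

/-- the black vertices reached from `b0` without the matching -/
def qb (M : PMap B W V) (m : B → Fin 3) (b0 : B) : Set B :=
  {b | ∀ S T, Closed M m S T → b0 ∈ S → b ∈ S}

/-- the white vertices reached from `b0` without the matching -/
def qw (M : PMap B W V) (m : B → Fin 3) (b0 : B) : Set W :=
  {w | ∀ S T, Closed M m S T → b0 ∈ S → w ∈ T}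

theorem closed_q (M : PMap B W V) (m : B → Fin 3) (b0 : B) :
    Closed M m (qb M m b0) (qw M m b0) := by
  intro b j hj
  constructor
  · intro h S T hST h0
    exact (hST b j hj).1 (h S T hST h0)
  · intro h S T hST h0
    exact (hST b j hj).2 (h S T hST h0)

theorem b0_mem (M : PMap B W V) (m : B → Fin 3) (b0 : B) : b0 ∈ qb M m b0 :=
  fun _ _ _ h => h

theorem f3 (j : Fin 3) : j + 1 + 2 = j := by revert j; decide
theorem f3' (j : Fin 3) : j + 2 + 1 = j := by revert j; decide

section Count

set_option linter.unusedSectionVars false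

variable [Fintype B] [Fintype V] (M : PMap B W V) (m : B → Fin 3) (b0 : B)

open Classical in
/-- vertices of `T` all of whose triangles are reached -/
noncomputable def IQ : Finset V :=
  Finset.univ.filter fun v => ∀ j b, M.c j b = v → b ∈ qb M m b0 ∧ M.e (j + 1) b ∈ qw M m b0

open Classical in
/-- vertices of `T` none of whose triangles is reached -/
noncomputable def IS : Finset V :=
  Finset.univ.filter fun v => ∀ j b, M.c j b = v → b ∉ qb M m b0 ∧ M.e (j + 1) b ∉ qw M m b0

open Classical in
/-- matching edges with both ends reached -/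
noncomputable def EQ : Finset B :=
  Finset.univ.filter fun b => b ∈ qb M m b0 ∧ M.e (m b) b ∈ qw M m b0

open Classical in
/-- matching edges with no end reached -/
noncomputable def ES : Finset B :=
  Finset.univ.filter fun b => b ∉ qb M m b0 ∧ M.e (m b) b ∉ qw M m b0

open Classical in
/-- matching edges with one end reached -/
noncomputable def EC : Finset B :=
  Finset.univ.filter fun b => ¬ (b ∈ qb M m b0 ↔ M.e (m b) b ∈ qw M m b0)

theorem card_edges : (EQ M m b0).card + (ES M m b0).card + (EC M m b0).card = Fintype.card B := by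
  classical
  have h1 : Disjoint (EQ M m b0) (ES M m b0) := by
    rw [Finset.disjoint_left]
    intro b hb hb'
    simp only [EQ, ES, Finset.mem_filter, Finset.mem_univ, true_and] at hb hb'
    exact hb'.1 hb.1
  have h2 : Disjoint (EQ M m b0 ∪ ES M m b0) (EC M m b0) := by
    rw [Finset.disjoint_left]
    intro b hb hb'
    simp only [EQ, ES, EC, Finset.mem_union, Finset.mem_filter, Finset.mem_univ, true_and]
      at hb hb'
    tauto
  rw [← Finset.card_union_of_disjoint h1, ← Finset.card_union_of_disjoint h2, ← Finset.card_univ]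
  congr 1
  ext b
  simp only [EQ, ES, EC, Finset.mem_union, Finset.mem_filter, Finset.mem_univ, true_and, iff_true]
  tauto

/-- the three triangles around an edge: the white triangle `e j b` lies at `c i b`, `i ≠ j` -/
theorem white_at (P : Set W) (i j : Fin 3) (hij : i ≠ j) (b : B) (v : V) (hv : M.c i b = v)
    (h : ∀ b', M.c i b' = v → M.e (i + 1) b' ∈ P) : M.e j b ∈ P := by
  rcases fcase j i with h1 | h1 | h1
  · exact absurd h1.symm hij
  · rw [h1]
    exact h b hv
  · rw [h1, ← M.e_rho]
    exact h _ (by rw [M.c_rho]; exact hv)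

theorem card_IS (f : B → Fin 3) (hfm : ∀ b, b ≠ b0 → f b ≠ m b)
    (hf : ∀ v, (∀ i, M.c i b0 ≠ v) → ∃ b, b ≠ b0 ∧ M.c (f b) b = v) :
    (IS M m b0).card ≤ (ES M m b0).card := by
  classical
  refine Finset.card_le_card_of_surjOn (fun b => M.c (f b) b) ?_
  intro v hv
  have hv' : ∀ j b, M.c j b = v → b ∉ qb M m b0 ∧ M.e (j + 1) b ∉ qw M m b0 := by
    simpa only [IS, Finset.coe_filter, Finset.mem_univ, true_and, Set.mem_ofPred_eq] using hv
  obtain ⟨b, hb, hbv⟩ := hf v (fun i h => (hv' i b0 h).1 (b0_mem M m b0))
  refine ⟨b, ?_, hbv⟩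
  simp only [ES, Finset.coe_filter, Finset.mem_univ, true_and, Set.mem_ofPred_eq]
  refine ⟨(hv' _ _ hbv).1, ?_⟩
  exact white_at M (qw M m b0)ᶜ (f b) (m b) (hfm b hb) b v hbv (fun b' hb' => (hv' _ _ hb').2)

open Classical in
theorem card_cross :
    (Finset.univ \ (IQ M m b0 ∪ IS M m b0) : Finset V).card ≤ (EC M m b0).card := by
  classical
  refine Finset.card_le_card_of_surjOn
    (fun b => if b ∈ qb M m b0 then M.c (m b + 2) b else M.c (m b + 1) b) ?_
  intro v hv
  by_contra hno
  have hcl := closed_q M m b0
  obtain ⟨j, b1, hb1⟩ := M.surj v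
  have step1 : ∀ b, M.c j b = v → b ∈ qb M m b0 → M.e (j + 1) b ∈ qw M m b0 := by
    intro b hb hq
    by_contra hw
    have hj : j + 1 = m b := by
      by_contra hj
      exact hw ((hcl b (j + 1) hj).1 hq)
    refine hno ⟨b, ?_, ?_⟩
    · simp only [EC, Finset.coe_filter, Finset.mem_univ, true_and, Set.mem_ofPred_eq]
      rw [← hj]
      tauto
    · simp only [if_pos hq]
      rw [← hj, f3]
      exact hb
  have step2 : ∀ b, M.c j b = v → M.e (j + 1) b ∈ qw M m b0 → (M.rho j).symm b ∈ qb M m b0 := by
    intro b hb hw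
    by_contra hq
    set b' := (M.rho j).symm b with hb'
    have he : M.e (j + 2) b' = M.e (j + 1) b := by
      rw [← M.e_rho, hb', Equiv.apply_symm_apply]
    have hcb : M.c j b' = v := by rw [hb', M.c_rho_symm]; exact hb
    have hj : j + 2 = m b' := by
      by_contra hj
      exact hq ((hcl b' (j + 2) hj).2 (by rw [he]; exact hw))
    refine hno ⟨b', ?_, ?_⟩
    · simp only [EC, Finset.coe_filter, Finset.mem_univ, true_and, Set.mem_ofPred_eq]
      rw [← hj, he]
      tauto
    · simp only [if_neg hq]
      rw [← hj, f3']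
      exact hcb
  have back : ∀ n : ℕ, ∀ b, M.c j b = v → (M.rho j ^ n) b ∈ qb M m b0 → b ∈ qb M m b0 := by
    intro n
    induction n with
    | zero => intro b _ h; simpa using h
    | succ n ih =>
      intro b hb h
      apply ih b hb
      have hc : M.c j ((M.rho j ^ (n + 1)) b) = v := by rw [M.c_rho_pow]; exact hb
      have := step2 _ hc (step1 _ hc h)
      rwa [pow_succ', Equiv.Perm.mul_apply, Equiv.symm_apply_apply] at this
  have all : ∀ b b', M.c j b = v → M.c j b' = v → b ∈ qb M m b0 → b' ∈ qb M m b0 := by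
    intro b b' hb hb' h
    obtain ⟨n, hn⟩ := (M.same_iff j b' b).1 (hb'.trans hb.symm)
    exact back n b' hb' (by rw [hn]; exact h)
  have hv1 : v ∉ IQ M m b0 ∧ v ∉ IS M m b0 := by
    simpa using hv
  by_cases hq : b1 ∈ qb M m b0
  · apply hv1.1
    simp only [IQ, Finset.mem_filter, Finset.mem_univ, true_and]
    intro j' b hb
    obtain rfl : j = j' := M.cls j j' b1 b (hb1.trans hb.symm)
    have := all b1 b hb1 hb hq
    exact ⟨this, step1 b hb this⟩
  · apply hv1.2
    simp only [IS, Finset.mem_filter, Finset.mem_univ, true_and]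
    intro j' b hb
    obtain rfl : j = j' := M.cls j j' b1 b (hb1.trans hb.symm)
    refine ⟨fun h => hq (all b b1 hb hb1 h), fun h => ?_⟩
    have h2 := step2 b hb h
    exact hq (all _ b1 (by rw [M.c_rho_symm]; exact hb) hb1 h2)

theorem card_V_le :
    Fintype.card V ≤ (IQ M m b0).card + (IS M m b0).card + (EC M m b0).card := by
  classical
  have h := card_cross M m b0
  have h2 : Fintype.card V ≤ (IQ M m b0 ∪ IS M m b0).card +
      (Finset.univ \ (IQ M m b0 ∪ IS M m b0) : Finset V).card := by
    rw [← Finset.card_univ]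
    have := Finset.card_le_card_sdiff_add_card (s := (Finset.univ : Finset V))
      (t := IQ M m b0 ∪ IS M m b0)
    omega
  have h3 := Finset.card_union_le (IQ M m b0) (IS M m b0)
  omega

end Count

section Inner

set_option linter.unusedSectionVars false

variable [Fintype B] [Fintype V] (M : PMap B W V) (m : B → Fin 3) (b0 : B)

/-- the difference of `k` across the edge of colour `j` at `b` -/
def D (M : PMap B W V) (k : V → ℚ) (b : B) (j : Fin 3) : ℚ := k (M.c (j + 1) b) - k (M.c (j + 2) b)

/-- the same at a white triangle -/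
def Dw (M : PMap B W V) (k : V → ℚ) (w : W) (j : Fin 3) : ℚ :=
  k (M.cw (j + 1) w) - k (M.cw (j + 2) w)

theorem Dw_e (k : V → ℚ) (b : B) (j : Fin 3) : Dw M k (M.e j b) j = D M k b j := by
  unfold Dw D
  rw [M.cw_e (j + 1) j (by revert j; decide) b, M.cw_e (j + 2) j (by revert j; decide) b]

theorem D_sum (k : V → ℚ) (b : B) (i j : Fin 3) (hij : i ≠ j) (hi : D M k b i = 0)
    (hj : D M k b j = 0) : ∀ l, D M k b l = 0 := by
  have key : ∀ i, D M k b i = 0 → D M k b (i + 1) = 0 → D M k b (i + 2) = 0 := by
    intro i h1 h2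
    unfold D at *
    rw [f11, f12] at h2
    rw [f21, f22]
    linarith
  have key2 : ∀ i, D M k b i = 0 → D M k b (i + 2) = 0 → D M k b (i + 1) = 0 := by
    intro i h1 h2
    unfold D at *
    rw [f21, f22] at h2
    rw [f11, f12]
    linarith
  intro l
  rcases fcase j i with rfl | rfl | rfl
  · exact absurd rfl hij
  · rcases fcase l i with rfl | rfl | rfl
    · exact hi
    · exact hj
    · exact key i hi hj
  · rcases fcase l i with rfl | rfl | rfl
    · exact hi
    · exact key2 i hi hj
    · exact hj

theorem Dw_sum (k : V → ℚ) (w : W) (i j : Fin 3) (hij : i ≠ j) (hi : Dw M k w i = 0)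
    (hj : Dw M k w j = 0) : ∀ l, Dw M k w l = 0 := by
  have key : ∀ i, Dw M k w i = 0 → Dw M k w (i + 1) = 0 → Dw M k w (i + 2) = 0 := by
    intro i h1 h2
    unfold Dw at *
    rw [f11, f12] at h2
    rw [f21, f22]
    linarith
  have key2 : ∀ i, Dw M k w i = 0 → Dw M k w (i + 2) = 0 → Dw M k w (i + 1) = 0 := by
    intro i h1 h2
    unfold Dw at *
    rw [f21, f22] at h2
    rw [f11, f12]
    linarith
  intro l
  rcases fcase j i with rfl | rfl | rfl
  · exact absurd rfl hij
  · rcases fcase l i with rfl | rfl | rfl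
    · exact hi
    · exact hj
    · exact key i hi hj
  · rcases fcase l i with rfl | rfl | rfl
    · exact hi
    · exact key2 i hi hj
    · exact hj

/-- a function on the vertices which is zero off the inner vertices, and whose differences across the
inner matching edges and one further edge at `b0` are zero, is zero -/
theorem inner_zero (hC : M.Conn) (hg : Function.Bijective fun b => M.e (m b) b)
    {b1 : B} (hb1 : b1 ∉ qb M m b0) (k : V → ℚ)
    (hk : ∀ v, v ∉ IQ M m b0 → k v = 0)
    (hE : ∀ b ∈ EQ M m b0, D M k b (m b) = 0) (h0 : D M k b0 (m b0 + 1) = 0) : ∀ v, k v = 0 := by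
  have hcl := closed_q M m b0
  have hblack : ∀ b, b ∉ qb M m b0 → ∀ j, k (M.c j b) = 0 := by
    intro b hb j
    apply hk
    simp only [IQ, Finset.mem_filter, Finset.mem_univ, true_and, not_forall]
    exact ⟨j, b, rfl, fun h => hb h.1⟩
  have hwhite : ∀ w, w ∉ qw M m b0 → ∀ j, k (M.cw j w) = 0 := by
    intro w hw j
    apply hk
    simp only [IQ, Finset.mem_filter, Finset.mem_univ, true_and, not_forall]
    refine ⟨j, (M.e (j + 1)).symm w, rfl, fun h => hw ?_⟩
    have := h.2
    rwa [Equiv.apply_symm_apply] at this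
  have hM : ∀ b, D M k b (m b) = 0 := by
    intro b
    by_cases hb : b ∈ qb M m b0
    · by_cases hw : M.e (m b) b ∈ qw M m b0
      · exact hE b (by simp only [EQ, Finset.mem_filter, Finset.mem_univ, true_and]; exact ⟨hb, hw⟩)
      · rw [← Dw_e]
        unfold Dw
        rw [hwhite _ hw, hwhite _ hw, sub_zero]
    · unfold D
      rw [hblack b hb, hblack b hb, sub_zero]
  have hclosed : Closed M m {b | b ∈ qb M m b0 → ∀ j, D M k b j = 0}
      {w | w ∈ qw M m b0 → ∀ j, Dw M k w j = 0} := by
    intro b j hj
    have hq := hcl b j hj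
    constructor
    · intro h hw
      have hD := h (hq.2 hw)
      obtain ⟨b', hb'⟩ := hg.2 (M.e j b)
      simp only at hb'
      have h1 : Dw M k (M.e j b) j = 0 := by rw [Dw_e]; exact hD j
      have h2 : Dw M k (M.e j b) (m b') = 0 := by rw [← hb', Dw_e]; exact hM b'
      refine Dw_sum M k _ j (m b') ?_ h1 h2
      intro hjm
      rw [← hjm] at hb'
      have hbb : b' = b := (M.e j).injective hb'
      rw [hbb] at hjm
      exact hj hjm
    · intro h hb
      have hD := h (hq.1 hb)
      refine D_sum M k b j (m b) hj ?_ (hM b)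
      rw [← Dw_e]
      exact hD j
  have h0' : b0 ∈ {b | b ∈ qb M m b0 → ∀ j, D M k b j = 0} := by
    intro _
    exact D_sum M k b0 (m b0) (m b0 + 1) (by generalize m b0 = x; revert x; decide) (hM b0) h0
  have hD : ∀ b j, D M k b j = 0 := by
    intro b j
    by_cases hb : b ∈ qb M m b0
    · exact hb _ _ hclosed h0' hb j
    · unfold D
      rw [hblack b hb, hblack b hb, sub_zero]
  have heq : ∀ b i j, k (M.c i b) = k (M.c j b) := by
    intro b
    have h12 : k (M.c 1 b) = k (M.c 2 b) := by
      have := hD b 0
      unfold D at this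
      rw [zero_add, zero_add] at this
      linarith
    have h20 : k (M.c 2 b) = k (M.c 0 b) := by
      have := hD b 1
      unfold D at this
      have e1 : (1 : Fin 3) + 1 = 2 := by decide
      have e2 : (1 : Fin 3) + 2 = 0 := by decide
      rw [e1, e2] at this
      linarith
    intro i j
    fin_cases i <;> fin_cases j <;> simp_all
  have hgen : ∀ x y, Relation.EqvGen (fun x y => ∃ j, M.c j x = M.c j y) x y →
      k (M.c 0 x) = k (M.c 0 y) := by
    intro x y hxy
    induction hxy with
    | rel x y h =>
      obtain ⟨j, hj⟩ := h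
      rw [heq x 0 j, heq y 0 j, hj]
    | refl x => rfl
    | symm x y _ ih => exact ih.symm
    | trans x y z _ _ ih1 ih2 => exact ih1.trans ih2
  intro v
  obtain ⟨j, b, hb⟩ := M.surj v
  rw [← hb, heq b j 0, hgen b b1 (hC b b1), hblack b1 hb1]

theorem card_IQ (hC : M.Conn) (hg : Function.Bijective fun b => M.e (m b) b)
    {b1 : B} (hb1 : b1 ∉ qb M m b0) : (IQ M m b0).card ≤ (EQ M m b0).card + 1 := by
  classical
  let ext : (↥(IQ M m b0) → ℚ) →ₗ[ℚ] (V → ℚ) :=
    { toFun := fun k v => if h : v ∈ IQ M m b0 then k ⟨v, h⟩ else 0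
      map_add' := by
        intro x y
        funext v
        by_cases h : v ∈ IQ M m b0 <;> simp [h]
      map_smul' := by
        intro a x
        funext v
        by_cases h : v ∈ IQ M m b0 <;> simp [h] }
  let L : (↥(IQ M m b0) → ℚ) →ₗ[ℚ] (Option ↥(EQ M m b0) → ℚ) :=
    { toFun := fun k o => match o with
        | none => D M (ext k) b0 (m b0 + 1)
        | some b => D M (ext k) b.1 (m b.1)
      map_add' := by
        intro x y
        funext o
        cases o <;> simp only [D, map_add, Pi.add_apply] <;> ring
      map_smul' := by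
        intro a x
        funext o
        cases o <;> simp only [D, map_smul, Pi.smul_apply, smul_eq_mul, RingHom.id_apply] <;> ring }
  have hinj : Function.Injective L := by
    rw [← LinearMap.ker_eq_bot, LinearMap.ker_eq_bot']
    intro k hk
    have h1 : ∀ v, ext k v = 0 := by
      refine inner_zero M m b0 hC hg hb1 (ext k) ?_ ?_ ?_
      · intro v hv
        simp [ext, hv]
      · intro b hb
        exact congrFun hk (some ⟨b, hb⟩)
      · exact congrFun hk none
    funext v
    have := h1 v.1
    simpa [ext, v.2] using this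
  have h := LinearMap.finrank_le_finrank_of_injective hinj
  rw [Module.finrank_fintype_fun_eq_card, Module.finrank_fintype_fun_eq_card, Fintype.card_option,
    Fintype.card_coe, Fintype.card_coe] at h
  exact h

/-- **Step 1, second half.** -/
theorem forest (hS : M.Sph) (f : B → Fin 3) (hg : Function.Bijective fun b => M.e (m b) b)
    (hfm : ∀ b, b ≠ b0 → f b ≠ m b)
    (hf : ∀ v, (∀ i, M.c i b0 ≠ v) → ∃ b, b ≠ b0 ∧ M.c (f b) b = v)
    (S : Set B) (T : Set W) (hST : Closed M m S T) (h0 : b0 ∈ S) (b : B) : b ∈ S := by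
  by_contra hb
  have hb1 : b ∉ qb M m b0 := fun h => hb (h S T hST h0)
  have h1 := card_edges M m b0
  have h2 := card_IS M m b0 f hfm hf
  have h3 := card_V_le M m b0
  have h4 := card_IQ M m b0 hS.conn hg hb1
  have h5 := hS.card
  omega

end Inner

end Vale.Agent.P039.H915
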