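import Vale.Agent.P039.H915.Tree
import Vale.Agent.P039.Bz.Stmt

/-! P039, Step 1 in the form `Bz.HamStmt` (second, independent proof). -/

namespace Vale.Agent.P039.H915

open Vale.Agent.P039.Bn

variable {B W V : Type}

open Classical in
theorem same_at_root [Fintype B] [Fintype W] (M : PMap B W V) (b0 : B) (T : Set W)
    (hT : ∀ b, b ≠ b0 → ∀ i j, (M.e i b ∈ T ↔ M.e j b ∈ T)) (i j : Fin 3) :
    M.e i b0 ∈ T ↔ M.e j b0 ∈ T := by
  have h1 : ∑ b, ((if M.e i b ∈ T then 1 else 0 : ℤ) - (if M.e j b ∈ T then 1 else 0)) = 0 := by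
    rw [Finset.sum_sub_distrib, Equiv.sum_comp (M.e i) (fun w => if w ∈ T then (1 : ℤ) else 0),
      Equiv.sum_comp (M.e j) (fun w => if w ∈ T then (1 : ℤ) else 0), sub_self]
  rw [Finset.sum_eq_single b0] at h1
  · by_cases hi : M.e i b0 ∈ T
    · by_cases hj : M.e j b0 ∈ T
      · exact ⟨fun _ => hj, fun _ => hi⟩
      · rw [if_pos hi, if_neg hj] at h1
        norm_num at h1
    · by_cases hj : M.e j b0 ∈ T
      · rw [if_neg hi, if_pos hj] at h1
        norm_num at h1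
      · exact ⟨fun h => absurd h hi, fun h => absurd h hj⟩
  · intro b _ hb
    rw [if_congr (hT b hb i j) rfl rfl, sub_self]
  · intro h
    exact absurd (Finset.mem_univ _) h

theorem connOff [Fintype B] [Fintype W] (M : PMap B W V) (hM : M.Conn) (b0 : B) :
    ConnOff M b0 := by
  intro T hT
  have hall : ∀ b i j, (M.e i b ∈ T ↔ M.e j b ∈ T) := by
    intro b i j
    by_cases hb : b = b0
    · rw [hb]
      exact same_at_root M b0 T hT i j
    · exact hT b hb i j
  have hstep : ∀ j x y, M.c j x = M.c j y → (M.e 0 x ∈ T ↔ M.e 0 y ∈ T) := by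
    intro j x y hxy
    induction M.exact j x y hxy with
    | rel x y h =>
      rw [hall x 0 (j + 2), hall y 0 (j + 1), h]
    | refl x => exact Iff.rfl
    | symm x y _ ih => exact (ih (hxy.symm)).symm
    | trans x y z h1 h2 ih1 ih2 =>
      exact (ih1 (M.c_of_eqvGen h1)).trans (ih2 (M.c_of_eqvGen h2))
  have hconst : ∀ x y, (M.e 0 x ∈ T ↔ M.e 0 y ∈ T) := by
    intro x y
    induction hM x y with
    | rel x y h =>
      obtain ⟨j, hj⟩ := h
      exact hstep j x y hj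
    | refl x => exact Iff.rfl
    | symm x y _ ih => exact ih.symm
    | trans x y z _ _ ih1 ih2 => exact ih1.trans ih2
  rcases Set.eq_empty_or_nonempty T with h | ⟨w, hw⟩
  · exact Or.inl h
  · right
    rw [Set.eq_univ_iff_forall]
    intro w'
    have h := hconst ((M.e 0).symm w) ((M.e 0).symm w')
    rw [Equiv.apply_symm_apply, Equiv.apply_symm_apply] at h
    exact h.1 hw

theorem Fo_eq (M : PMap B W V) (b₀ : B) (b : Bz.BOff b₀) (j : Fin 3) (v : Bz.VOff M b₀) :
    Bz.Fo M b₀ b j = some v ↔ M.c j b.1 = v.1 := by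
  unfold Bz.Fo
  constructor
  · intro h
    split_ifs at h with hj
    exact congrArg Subtype.val (Option.some.inj h)
  · intro h
    have hj : ∀ i, M.c i b₀ ≠ M.c j b.1 := by
      rw [h]
      exact v.2
    rw [dif_pos hj]
    exact congrArg some (Subtype.ext h)

theorem hamStmt : Bz.HamStmt := by
  classical
  intro B W V _ _ _ M hM b₀ f hf hg i
  let F : B → Fin 3 := fun b => if h : b = b₀ then 0 else f ⟨b, h⟩
  have hF : ∀ b (h : b ≠ b₀), F b = f ⟨b, h⟩ := fun b h => dif_neg h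
  obtain ⟨φ, hφ⟩ := hf
  have hgood : Good M b₀ F := by
    intro K hK0 hK
    obtain ⟨v0, hv0⟩ := hK
    have hv0' : ∀ i, M.c i b₀ ≠ v0 := fun i h => hK0 i (h ▸ hv0)
    obtain ⟨b, p, q, hp, hq, ⟨v, hvK, hv⟩, hno⟩ := hg {v | v.1 ∈ K} ⟨⟨v0, hv0'⟩, hv0⟩
    rw [Fo_eq] at hv
    have hpK : M.c p b.1 ∈ K := by
      rw [hv]
      exact hvK
    have hqK : M.c q b.1 ∉ K := by
      intro h
      exact hno ⟨M.c q b.1, fun i hi => hK0 i (hi ▸ h)⟩ h ((Fo_eq M b₀ b q _).2 rfl)
    refine ⟨b.1, b.2, ?_⟩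
    rw [hF b.1 b.2]
    change ¬ (M.c (f b + 1) b.1 ∈ K ↔ M.c (f b + 2) b.1 ∈ K)
    intro hiff
    rcases fcase p (f b) with h | h | h
    · exact hp h
    · rcases fcase q (f b) with h' | h' | h'
      · exact hq h'
      · rw [h] at hpK
        rw [h'] at hqK
        exact hqK hpK
      · rw [h] at hpK
        rw [h'] at hqK
        exact hqK (hiff.1 hpK)
    · rcases fcase q (f b) with h' | h' | h'
      · exact hq h'
      · rw [h] at hpK
        rw [h'] at hqK
        exact hqK (hiff.2 hpK)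
      · rw [h] at hpK
        rw [h'] at hqK
        exact hqK hpK
  have hsurj : ∀ v, (∀ i, M.c i b₀ ≠ v) → ∃ b, b ≠ b₀ ∧ M.c (F b) b = v := by
    intro v hv
    refine ⟨(φ.symm ⟨v, hv⟩).1, (φ.symm ⟨v, hv⟩).2, ?_⟩
    rw [hF _ (φ.symm ⟨v, hv⟩).2]
    have h := hφ (φ.symm ⟨v, hv⟩)
    rw [Equiv.apply_symm_apply, Fo_eq] at h
    exact h
  obtain ⟨m, h0, _, hbij, hall⟩ := step1 M b₀ F hM hgood (connOff M hM.conn b₀) hsurj i
  refine ⟨m, ⟨hbij, ?_⟩, h0⟩
  intro S T hST hS b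
  by_cases hb : b₀ ∈ S
  · exact hall S T hST hb b
  · exfalso
    obtain ⟨s, hs⟩ := hS
    exact hall Sᶜ Tᶜ (fun b j hj => not_congr (hST b j hj)) hb s hs

end Vale.Agent.P039.H915
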