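import Mathlib
import Vale.Agent.P039.H915.Forest

/-! P039, Step 1 (first half): from a good `f` to the perfect matching `m`. -/

namespace Vale.Agent.P039.H915

open Vale.Agent.P039.Bn Classical

variable {B W V : Type} [Fintype B] [Fintype W] [Fintype V] (M : PMap B W V) (b0 : B) (f : B → Fin 3)

/-- `f` is good at `b0`: every non-empty set of vertices of `T` off `b0` is left by the edge of `T`
which is opposite to `c (f b) b` in some black triangle `b ≠ b0`. -/
def Good : Prop :=
  ∀ K : Set V, (∀ i, M.c i b0 ∉ K) → K.Nonempty →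
    ∃ b, b ≠ b0 ∧ ¬ (M.c (f b + 1) b ∈ K ↔ M.c (f b + 2) b ∈ K)

/-- `G` minus `b0` is connected. -/
def ConnOff : Prop :=
  ∀ T : Set W, (∀ b, b ≠ b0 → ∀ i j, (M.e i b ∈ T ↔ M.e j b ∈ T)) → T = ∅ ∨ T = Set.univ

set_option linter.unusedSectionVars false

omit [Fintype V] in
include M in
theorem card_BW : Fintype.card B = Fintype.card W := Fintype.card_congr (M.e 0)

omit [Fintype W] [Fintype V] in
theorem card_off_b : Fintype.card {b : B // b ≠ b0} = Fintype.card B - 1 := by
  have h := Fintype.card_subtype_compl (fun b => b = b0)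
  rw [Fintype.card_subtype_eq] at h
  exact h

theorem card_off_v (hS : M.Sph) :
    Fintype.card {v : V // ∀ i, M.c i b0 ≠ v} = Fintype.card {b : B // b ≠ b0} := by
  have h1 : Fintype.card (Fin 3) = Fintype.card {v : V // ¬ ∀ i, M.c i b0 ≠ v} := by
    refine Fintype.card_congr (Equiv.ofBijective
      (fun i => (⟨M.c i b0, fun h => h i rfl⟩ : {v : V // ¬ ∀ i, M.c i b0 ≠ v})) ⟨?_, ?_⟩)
    · intro i j hij
      exact M.cls i j b0 b0 (congrArg Subtype.val hij)
    · rintro ⟨v, hv⟩
      push Not at hv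
      obtain ⟨i, hi⟩ := hv
      exact ⟨i, Subtype.ext hi⟩
  have h2 := Fintype.card_subtype_compl (fun v : V => ∀ i, M.c i b0 ≠ v)
  have h3 := Fintype.card_subtype_le (fun v : V => ∀ i, M.c i b0 ≠ v)
  have h4 := hS.card
  have h5 := card_off_b b0
  have h6 : 0 < Fintype.card B := Fintype.card_pos_iff.2 ⟨b0⟩
  rw [Fintype.card_fin] at h1
  omega

/-- extension by zero -/
noncomputable def extV (k : {v : V // ∀ i, M.c i b0 ≠ v} → ℚ) (v : V) : ℚ :=
  if h : ∀ i, M.c i b0 ≠ v then k ⟨v, h⟩ else 0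

theorem extV_zero (k : {v : V // ∀ i, M.c i b0 ≠ v} → ℚ) (i : Fin 3) :
    extV M b0 k (M.c i b0) = 0 := by
  unfold extV
  rw [dif_neg (fun h => h i rfl)]

/-- the incidence map of the graph `D_f` -/
noncomputable def N : ({v : V // ∀ i, M.c i b0 ≠ v} → ℚ) →ₗ[ℚ] ({b : B // b ≠ b0} → ℚ) where
  toFun k b := extV M b0 k (M.c (f b.1 + 1) b.1) - extV M b0 k (M.c (f b.1 + 2) b.1)
  map_add' x y := by
    funext b
    simp only [extV, Pi.add_apply]
    split_ifs <;> ring
  map_smul' a x := by
    funext b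
    simp only [extV, Pi.smul_apply, smul_eq_mul, RingHom.id_apply]
    split_ifs <;> ring

theorem N_inj (hgood : Good M b0 f) : Function.Injective (N M b0 f) := by
  rw [← LinearMap.ker_eq_bot, LinearMap.ker_eq_bot']
  intro k hk
  by_contra hne
  obtain ⟨v, hv⟩ := Function.ne_iff.1 hne
  obtain ⟨b, hb, hbK⟩ := hgood {v | extV M b0 k v ≠ 0}
    (fun i h => h (extV_zero M b0 k i)) ⟨v.1, by
      change extV M b0 k v.1 ≠ 0
      unfold extV
      rw [dif_pos v.2]
      exact hv⟩
  apply hbK
  have h := congrFun hk ⟨b, hb⟩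
  simp only [N, LinearMap.coe_mk, AddHom.coe_mk, Pi.zero_apply] at h
  have h' : extV M b0 k (M.c (f b + 1) b) = extV M b0 k (M.c (f b + 2) b) := by linarith
  change extV M b0 k (M.c (f b + 1) b) ≠ 0 ↔ extV M b0 k (M.c (f b + 2) b) ≠ 0
  rw [h']

theorem N_surj (hS : M.Sph) (hgood : Good M b0 f) : Function.Surjective (N M b0 f) := by
  refine (LinearMap.injective_iff_surjective_of_finrank_eq_finrank ?_).1 (N_inj M b0 f hgood)
  classical
  rw [Module.finrank_fintype_fun_eq_card, Module.finrank_fintype_fun_eq_card]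
  convert card_off_v M b0 hS

/-- summation around the vertices -/
theorem stokes0 (t : W → ℚ) (k : V → ℚ) (j : Fin 3) :
    ∑ b, (t (M.e (j + 1) b) - t (M.e (j + 2) b)) * k (M.c j b) = 0 := by
  have h : ∑ b, t (M.e (j + 2) b) * k (M.c j b) = ∑ b, t (M.e (j + 1) b) * k (M.c j b) := by
    rw [← Equiv.sum_comp (M.rho j) (fun b => t (M.e (j + 1) b) * k (M.c j b))]
    refine Finset.sum_congr rfl fun b _ => ?_
    rw [M.e_rho, M.c_rho]
  simp only [sub_mul, Finset.sum_sub_distrib]
  rw [h, sub_self]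

/-- Step 1a: sets of white vertices closed for `Γ` are trivial. -/
theorem gamma_conn (hS : M.Sph) (hgood : Good M b0 f) (hoff : ConnOff M b0) (T : Set W)
    (hT : ∀ b, b ≠ b0 → (M.e (f b + 1) b ∈ T ↔ M.e (f b + 2) b ∈ T)) : T = ∅ ∨ T = Set.univ := by
  classical
  let t : W → ℚ := fun w => if w ∈ T then 1 else 0
  have ht : ∀ b, b ≠ b0 → t (M.e (f b + 1) b) = t (M.e (f b + 2) b) := by
    intro b hb
    simp only [t, hT b hb]
  let y : {b : B // b ≠ b0} → ℚ := fun b => t (M.e (f b.1 + 2) b.1) - t (M.e (f b.1) b.1)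
  have hortho : ∀ k, ∑ b, y b * N M b0 f k b = 0 := by
    intro k
    have h1 : ∀ b : {b : B // b ≠ b0}, y b * N M b0 f k b =
        ∑ j : Fin 3, (t (M.e (j + 1) b.1) - t (M.e (j + 2) b.1)) * extV M b0 k (M.c j b.1) := by
      intro b
      have hs : ∀ g : Fin 3 → ℚ, ∀ i : Fin 3, ∑ j, g j = g i + g (i + 1) + g (i + 2) := by
        intro g i
        rw [Fin.sum_univ_three]
        fin_cases i
        · rfl
        · change g 0 + g 1 + g 2 = g 1 + g 2 + g 0
          ring
        · change g 0 + g 1 + g 2 = g 2 + g 0 + g 1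
          ring
      rw [hs _ (f b.1)]
      simp only [N, LinearMap.coe_mk, AddHom.coe_mk, y, f11, f12, f21, f22]
      rw [ht b.1 b.2]
      ring
    rw [Finset.sum_congr rfl fun b _ => h1 b]
    have h2 : ∑ b : {b : B // b ≠ b0}, ∑ j : Fin 3,
        (t (M.e (j + 1) b.1) - t (M.e (j + 2) b.1)) * extV M b0 k (M.c j b.1) =
        ∑ b : B, ∑ j : Fin 3, (t (M.e (j + 1) b) - t (M.e (j + 2) b)) * extV M b0 k (M.c j b) := by
      let G : B → ℚ := fun b =>
        ∑ j : Fin 3, (t (M.e (j + 1) b) - t (M.e (j + 2) b)) * extV M b0 k (M.c j b)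
      have hG : G b0 = 0 := by
        simp only [G, extV_zero, mul_zero, Finset.sum_const_zero]
      change ∑ b : {b : B // b ≠ b0}, G b.1 = ∑ b, G b
      have h3 := Fintype.sum_subtype_add_sum_subtype (fun b => b ≠ b0) G
      have h4 : ∑ b : {b : B // ¬ b ≠ b0}, G b.1 = 0 := by
        refine Finset.sum_eq_zero fun b _ => ?_
        have : b.1 = b0 := not_not.1 b.2
        rw [this, hG]
      rw [h4, add_zero] at h3
      exact h3
    rw [h2, Finset.sum_comm]
    exact Finset.sum_eq_zero fun j _ => stokes0 M t _ j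
  obtain ⟨k, hk⟩ := N_surj M b0 f hS hgood y
  have hy : ∀ b, y b = 0 := by
    have h := hortho k
    rw [hk] at h
    have h' := (Finset.sum_eq_zero_iff_of_nonneg (fun b _ => mul_self_nonneg (y b))).1 h
    intro b
    exact mul_self_eq_zero.1 (h' b (Finset.mem_univ b))
  apply hoff
  intro b hb
  have e1 : t (M.e (f b + 2) b) = t (M.e (f b) b) := by
    have := hy ⟨b, hb⟩
    simp only [y] at this
    linarith
  have e2 := ht b hb
  have key : ∀ i, t (M.e i b) = t (M.e (f b) b) := by
    intro i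
    rcases fcase i (f b) with h | h | h
    · rw [h]
    · rw [h, e2, e1]
    · rw [h, e1]
  have key2 : ∀ i, (M.e i b ∈ T ↔ M.e (f b) b ∈ T) := by
    intro i
    have := key i
    simp only [t] at this
    by_cases h1 : M.e i b ∈ T <;> by_cases h2 : M.e (f b) b ∈ T <;> simp_all
  intro i j
  rw [key2 i, key2 j]

/-- Step 1b: `Γ` rooted at the white vertex `e i b0`. -/
theorem exists_root (hS : M.Sph) (hgood : Good M b0 f) (hoff : ConnOff M b0) (i : Fin 3) :
    ∃ t : {b : B // b ≠ b0} ≃ {w : W // w ≠ M.e i b0},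
      ∀ b, M.e (f b.1 + 1) b.1 = (t b).1 ∨ M.e (f b.1 + 2) b.1 = (t b).1 := by
  have hcard : Fintype.card {b : B // b ≠ b0} = Fintype.card {w : W // w ≠ M.e i b0} := by
    rw [card_off_b b0, card_off_b (M.e i b0), card_BW M]
  let s0 : {b : B // b ≠ b0} ≃ {w : W // w ≠ M.e i b0} := Fintype.equivOfCardEq hcard
  let A : Matrix {b : B // b ≠ b0} {b : B // b ≠ b0} ℚ := fun b b' =>
    (if M.e (f b.1 + 1) b.1 = (s0 b').1 then 1 else 0) -
      (if M.e (f b.1 + 2) b.1 = (s0 b').1 then 1 else 0)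
  have hdet : A.det ≠ 0 := by
    intro h0
    obtain ⟨k, hk0, hk⟩ := Matrix.exists_mulVec_eq_zero_iff.2 h0
    let K : W → ℚ := fun w => if h : w ≠ M.e i b0 then k (s0.symm ⟨w, h⟩) else 0
    have hK : ∀ w : W, ∑ b', (if w = (s0 b').1 then (1 : ℚ) else 0) * k b' = K w := by
      intro w
      by_cases h : w ≠ M.e i b0
      · simp only [K, dif_pos h]
        rw [Finset.sum_eq_single (s0.symm ⟨w, h⟩)]
        · rw [Equiv.apply_symm_apply, if_pos rfl, one_mul]
        · intro b' _ hb'
          rw [if_neg, zero_mul]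
          intro hw
          apply hb'
          rw [Equiv.eq_symm_apply]
          exact Subtype.ext hw.symm
        · intro hn
          exact absurd (Finset.mem_univ _) hn
      · simp only [K, dif_neg h]
        refine Finset.sum_eq_zero fun b' _ => ?_
        rw [if_neg, zero_mul]
        intro hw
        exact h (hw ▸ (s0 b').2)
    have hKc : ∀ b, b ≠ b0 → K (M.e (f b + 1) b) = K (M.e (f b + 2) b) := by
      intro b hb
      have h := congrFun hk ⟨b, hb⟩
      simp only [Matrix.mulVec, dotProduct, A, sub_mul, Finset.sum_sub_distrib, Pi.zero_apply] at h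
      rw [hK, hK] at h
      linarith
    have hT := gamma_conn M b0 f hS hgood hoff {w | K w ≠ 0} (by
      intro b hb
      change K _ ≠ 0 ↔ K _ ≠ 0
      rw [hKc b hb])
    have hroot : K (M.e i b0) = 0 := by simp only [K, ne_eq, not_true_eq_false, dite_false]
    rcases hT with hT | hT
    · apply hk0
      funext b
      have h1 : ¬ K (s0 b).1 ≠ 0 := by
        intro h
        have : (s0 b).1 ∈ ({w | K w ≠ 0} : Set W) := h
        rw [hT] at this
        exact this
      rw [not_not] at h1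
      simp only [K, dif_pos (s0 b).2, Subtype.coe_eta, Equiv.symm_apply_apply] at h1
      exact h1
    · have : M.e i b0 ∈ ({w | K w ≠ 0} : Set W) := by rw [hT]; trivial
      exact this hroot
  rw [Matrix.det_apply] at hdet
  obtain ⟨σ, _, hσ⟩ := Finset.exists_ne_zero_of_sum_ne_zero hdet
  have hprod : ∏ b, A (σ b) b ≠ 0 := by
    intro h
    rw [h, smul_zero] at hσ
    exact hσ rfl
  refine ⟨σ.symm.trans s0, fun b => ?_⟩
  have h := Finset.prod_ne_zero_iff.1 hprod (σ.symm b) (Finset.mem_univ _)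
  rw [Equiv.apply_symm_apply] at h
  change M.e (f b.1 + 1) b.1 = (s0 (σ.symm b)).1 ∨ M.e (f b.1 + 2) b.1 = (s0 (σ.symm b)).1
  by_contra hno
  rw [not_or] at hno
  apply h
  simp only [A, if_neg hno.1, if_neg hno.2, sub_self]

/-- **Step 1.** A good `f` gives Hamiltonian cycles avoiding any prescribed edge at `b0`. -/
theorem step1 (hS : M.Sph) (hgood : Good M b0 f) (hoff : ConnOff M b0)
    (hf : ∀ v, (∀ i, M.c i b0 ≠ v) → ∃ b, b ≠ b0 ∧ M.c (f b) b = v) (i : Fin 3) :
    ∃ m : B → Fin 3, m b0 = i ∧ (∀ b, b ≠ b0 → f b ≠ m b) ∧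
      Function.Bijective (fun b => M.e (m b) b) ∧
      ∀ (S : Set B) (T : Set W), (∀ b j, j ≠ m b → (b ∈ S ↔ M.e j b ∈ T)) → b0 ∈ S →
        ∀ b, b ∈ S := by
  obtain ⟨t, ht⟩ := exists_root M b0 f hS hgood hoff i
  let m : B → Fin 3 := fun b => if h : b = b0 then i else
    if M.e (f b + 1) b = (t ⟨b, h⟩).1 then f b + 1 else f b + 2
  have hm0 : m b0 = i := by simp only [m, dite_true]
  have hm : ∀ b (h : b ≠ b0), M.e (m b) b = (t ⟨b, h⟩).1 := by
    intro b h
    by_cases h1 : M.e (f b + 1) b = (t ⟨b, h⟩).1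
    · simp only [m, dif_neg h, if_pos h1]
      exact h1
    · have h2 := (ht ⟨b, h⟩).resolve_left h1
      simp only [m, dif_neg h, if_neg h1]
      exact h2
  have hfm : ∀ b, b ≠ b0 → f b ≠ m b := by
    intro b h
    simp only [m, dif_neg h]
    split_ifs
    · exact (fne1 (f b)).symm
    · exact (fne2 (f b)).symm
  have hbij : Function.Bijective (fun b => M.e (m b) b) := by
    constructor
    · intro b b' hbb
      simp only at hbb
      by_cases h : b = b0
      · by_cases h' : b' = b0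
        · rw [h, h']
        · exfalso
          rw [h, hm0, hm b' h'] at hbb
          exact (t ⟨b', h'⟩).2 hbb.symm
      · by_cases h' : b' = b0
        · exfalso
          rw [h', hm0, hm b h] at hbb
          exact (t ⟨b, h⟩).2 hbb
        · rw [hm b h, hm b' h'] at hbb
          exact congrArg Subtype.val (t.injective (Subtype.ext hbb))
    · intro w
      by_cases hw : w = M.e i b0
      · exact ⟨b0, by simp only [hm0, hw]⟩
      · refine ⟨(t.symm ⟨w, hw⟩).1, ?_⟩
        simp only
        rw [hm _ (t.symm ⟨w, hw⟩).2, Subtype.coe_eta, Equiv.apply_symm_apply]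
  refine ⟨m, hm0, hfm, hbij, ?_⟩
  intro S T hST h0 b
  exact forest M m b0 hS f hbij hfm hf S T hST h0 b

end Vale.Agent.P039.H915
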